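import Mathlib

/-!
# Closed neighbourhoods, the cut function and greedy bases
-/

namespace Vale.Agent.P038.H775

open Finset

variable {V : Type*} [Fintype V] [DecidableEq V]

/-- The closed out-neighbourhood of a set. -/
def NN (N : V → Finset V) (S : Finset V) : Finset V := S.biUnion N

omit [Fintype V] in
theorem mem_NN {N : V → Finset V} {S : Finset V} {z : V} : z ∈ NN N S ↔ ∃ y ∈ S, z ∈ N y := by
  simp [NN]

/-- The cut function `w(N[S]) - w(S)`. -/
noncomputable def cut (N : V → Finset V) (w : V → ℝ) (S : Finset V) : ℝ :=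
  (∑ v ∈ NN N S, w v) - ∑ v ∈ S, w v

omit [Fintype V] in
theorem cut_submod (N : V → Finset V) {w : V → ℝ} (hw : ∀ v, 0 < w v) (S T : Finset V) :
    cut N w (S ∪ T) + cut N w (S ∩ T) ≤ cut N w S + cut N w T := by
  have h1 : NN N (S ∪ T) = NN N S ∪ NN N T := by
    ext z
    simp only [mem_NN, mem_union]
    constructor
    · rintro ⟨y, hy | hy, hz⟩
      · exact Or.inl ⟨y, hy, hz⟩
      · exact Or.inr ⟨y, hy, hz⟩
    · rintro (⟨y, hy, hz⟩ | ⟨y, hy, hz⟩)
      · exact ⟨y, Or.inl hy, hz⟩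
      · exact ⟨y, Or.inr hy, hz⟩
  have h2 : NN N (S ∩ T) ⊆ NN N S ∩ NN N T := by
    intro z hz
    obtain ⟨y, hy, hz⟩ := mem_NN.1 hz
    rw [mem_inter] at hy
    exact mem_inter.2 ⟨mem_NN.2 ⟨y, hy.1, hz⟩, mem_NN.2 ⟨y, hy.2, hz⟩⟩
  have h3 : ∑ v ∈ NN N (S ∩ T), w v ≤ ∑ v ∈ NN N S ∩ NN N T, w v :=
    sum_le_sum_of_subset_of_nonneg h2 fun v _ _ => (hw v).le
  have h4 := sum_union_inter (s₁ := NN N S) (s₂ := NN N T) (f := w)
  have h5 := sum_union_inter (s₁ := S) (s₂ := T) (f := w)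
  unfold cut
  rw [h1]
  linarith

open Classical in
/-- The minimum of `c` over the interval `[L, H]`. -/
noncomputable def mn (c : Finset V → ℝ) (L H : Finset V) : ℝ :=
  if h : (Finset.univ.filter fun T : Finset V => L ⊆ T ∧ T ⊆ H).Nonempty then
    (Finset.univ.filter fun T : Finset V => L ⊆ T ∧ T ⊆ H).inf' h c else 0

theorem mn_le {c : Finset V → ℝ} {L H T : Finset V} (h1 : L ⊆ T) (h2 : T ⊆ H) :
    mn c L H ≤ c T := by
  classical
  have hT : T ∈ (Finset.univ.filter fun T : Finset V => L ⊆ T ∧ T ⊆ H) := by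
    simp [h1, h2]
  unfold mn
  rw [dif_pos ⟨T, hT⟩]
  exact Finset.inf'_le _ hT

theorem mn_attain {c : Finset V → ℝ} {L H : Finset V} (h : L ⊆ H) :
    ∃ T, L ⊆ T ∧ T ⊆ H ∧ c T = mn c L H := by
  classical
  have hne : (Finset.univ.filter fun T : Finset V => L ⊆ T ∧ T ⊆ H).Nonempty :=
    ⟨L, by simp [h]⟩
  obtain ⟨T, hT, hT'⟩ := Finset.exists_mem_eq_inf' hne c
  refine ⟨T, (Finset.mem_filter.1 hT).2.1, (Finset.mem_filter.1 hT).2.2, ?_⟩
  unfold mn
  rw [dif_pos hne]
  exact hT'.symm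

theorem mn_self {c : Finset V → ℝ} {H : Finset V} : mn c H H = c H := by
  obtain ⟨T, h1, h2, h3⟩ := mn_attain (c := c) (Finset.Subset.refl H)
  rw [← h3, Finset.Subset.antisymm h2 h1]

theorem mn_mono {c : Finset V → ℝ} {L L' H : Finset V} (h : L ⊆ L') (h' : L' ⊆ H) :
    mn c L H ≤ mn c L' H := by
  obtain ⟨T, h1, h2, h3⟩ := mn_attain (c := c) h'
  rw [← h3]
  exact mn_le (h.trans h1) h2

/-- The lower sets of the greedy procedure. -/
def Lk (e : V ≃ Fin (Fintype.card V)) (B U : Finset V) (k : ℕ) : Finset V :=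
  B ∪ U.filter fun x => (e x : ℕ) < k

/-- The greedy base. -/
noncomputable def gr (c : Finset V → ℝ) (e : V ≃ Fin (Fintype.card V)) (B U : Finset V) (x : V) :
    ℝ :=
  mn c (Lk e B U ((e x : ℕ) + 1)) U - mn c (Lk e B U (e x : ℕ)) U

theorem mem_Lk {e : V ≃ Fin (Fintype.card V)} {B U : Finset V} {k : ℕ} {x : V} :
    x ∈ Lk e B U k ↔ x ∈ B ∨ (x ∈ U ∧ (e x : ℕ) < k) := by
  simp [Lk]

theorem Lk_mono {e : V ≃ Fin (Fintype.card V)} {B U : Finset V} {k l : ℕ} (h : k ≤ l) :
    Lk e B U k ⊆ Lk e B U l := by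
  intro x hx
  rw [mem_Lk] at hx ⊢
  rcases hx with hx | hx
  · exact Or.inl hx
  · exact Or.inr ⟨hx.1, hx.2.trans_le h⟩

theorem Lk_sub {e : V ≃ Fin (Fintype.card V)} {B U : Finset V} (h : B ⊆ U) (k : ℕ) :
    Lk e B U k ⊆ U := by
  intro x hx
  rw [mem_Lk] at hx
  rcases hx with hx | hx
  · exact h hx
  · exact hx.1

theorem gr_nonneg {c : Finset V → ℝ} {e : V ≃ Fin (Fintype.card V)} {B U : Finset V} (h : B ⊆ U)
    (x : V) : 0 ≤ gr c e B U x := by
  unfold gr
  have := mn_mono (c := c) (Lk_mono (e := e) (B := B) (U := U) (Nat.le_succ (e x : ℕ)))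
    (Lk_sub h _)
  linarith

theorem gr_zero {c : Finset V → ℝ} {e : V ≃ Fin (Fintype.card V)} {B U : Finset V} {x : V}
    (h : x ∈ U → x ∈ B) : gr c e B U x = 0 := by
  unfold gr
  have : Lk e B U ((e x : ℕ) + 1) = Lk e B U (e x : ℕ) := by
    ext y
    rw [mem_Lk, mem_Lk]
    constructor
    · rintro (hy | ⟨hy, hk⟩)
      · exact Or.inl hy
      · rcases Nat.lt_succ_iff_lt_or_eq.1 hk with hk | hk
        · exact Or.inr ⟨hy, hk⟩
        · have : y = x := e.injective (Fin.ext hk)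
          subst this
          exact Or.inl (h hy)
    · rintro (hy | ⟨hy, hk⟩)
      · exact Or.inl hy
      · exact Or.inr ⟨hy, hk.trans (Nat.lt_succ_self _)⟩
  rw [this, sub_self]

theorem gr_sum {c : Finset V → ℝ} {e : V ≃ Fin (Fintype.card V)} {B U : Finset V} (h : B ⊆ U)
    (hB : mn c B U = c B) : ∑ x, gr c e B U x = c U - c B := by
  have h1 : ∑ x, gr c e B U x =
      ∑ i : Fin (Fintype.card V), (mn c (Lk e B U ((i : ℕ) + 1)) U - mn c (Lk e B U (i : ℕ)) U) := by
    rw [← e.sum_comp (fun i : Fin (Fintype.card V) =>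
      mn c (Lk e B U ((i : ℕ) + 1)) U - mn c (Lk e B U (i : ℕ)) U)]
    rfl
  rw [h1, Fin.sum_univ_eq_sum_range
    (fun i : ℕ => mn c (Lk e B U (i + 1)) U - mn c (Lk e B U i) U) (Fintype.card V),
    Finset.sum_range_sub (fun i => mn c (Lk e B U i) U)]
  have h2 : Lk e B U (Fintype.card V) = U := by
    apply Finset.Subset.antisymm (Lk_sub h _)
    intro x hx
    exact mem_Lk.2 (Or.inr ⟨hx, (e x).2⟩)
  have h3 : Lk e B U 0 = B := by
    ext x
    rw [mem_Lk]
    simp
  rw [h2, h3, mn_self, hB]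

/-- Coherence of the greedy bases. -/
theorem gr_coh {c : Finset V → ℝ} (hc : ∀ S T, c (S ∪ T) + c (S ∩ T) ≤ c S + c T)
    {e : V ≃ Fin (Fintype.card V)} {B U X W : Finset V} (hBU : B ⊆ U) (hXW : X ⊆ W) (hXB : X ⊆ B)
    (hWU : W ⊆ U) {x : V} (hx : x ∈ W) : gr c e B U x ≤ gr c e X W x := by
  obtain ⟨T, hT1, hT2, hT3⟩ := mn_attain (c := c) (Lk_sub (e := e) hXW ((e x : ℕ) + 1))
  obtain ⟨R, hR1, hR2, hR3⟩ := mn_attain (c := c) (Lk_sub (e := e) hBU (e x : ℕ))
  have hxT : x ∈ T := hT1 (mem_Lk.2 (Or.inr ⟨hx, Nat.lt_succ_self _⟩))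
  have h1 : mn c (Lk e B U ((e x : ℕ) + 1)) U ≤ c (T ∪ R) := by
    apply mn_le
    · intro y hy
      rw [mem_Lk] at hy
      rcases hy with hy | ⟨hy, hk⟩
      · exact mem_union_right _ (hR1 (mem_Lk.2 (Or.inl hy)))
      · rcases Nat.lt_succ_iff_lt_or_eq.1 hk with hk | hk
        · exact mem_union_right _ (hR1 (mem_Lk.2 (Or.inr ⟨hy, hk⟩)))
        · have : y = x := e.injective (Fin.ext hk)
          subst this
          exact mem_union_left _ hxT
    · exact union_subset (hT2.trans hWU) hR2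
  have h2 : mn c (Lk e X W (e x : ℕ)) W ≤ c (T ∩ R) := by
    apply mn_le
    · intro y hy
      rw [mem_inter]
      refine ⟨hT1 (Lk_mono (Nat.le_succ _) hy), hR1 ?_⟩
      rw [mem_Lk] at hy ⊢
      rcases hy with hy | ⟨hy, hk⟩
      · exact Or.inl (hXB hy)
      · exact Or.inr ⟨hWU hy, hk⟩
    · exact inter_subset_left.trans hT2
  have h3 := hc T R
  unfold gr
  linarith

open Classical in
/-- Layer cake for a Hall condition. -/
theorem layer (N : V → Finset V) {w : V → ℝ} (hw : ∀ v, 0 < w v) (A D : Finset V)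
    (hall : ∀ Z ⊆ D, ∑ z ∈ Z, w z ≤ ∑ a ∈ A.filter (fun a => ∃ z ∈ Z, a ∈ N z), w a) :
    ∀ (n : ℕ) (g G : V → ℝ), (D.filter fun z => 0 < g z).card = n → (∀ z ∈ D, 0 ≤ g z) →
      (∀ a ∈ A, 0 ≤ G a) → (∀ a ∈ A, ∀ z ∈ D, a ∈ N z → g z ≤ G a) →
      ∑ z ∈ D, w z * g z ≤ ∑ a ∈ A, w a * G a := by
  intro n
  induction n using Nat.strong_induction_on with
  | _ n ih =>
  intro g G hn hg hG hgG
  set S := D.filter fun z => 0 < g z with hS
  rcases S.eq_empty_or_nonempty with hE | hne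
  · have h0 : ∑ z ∈ D, w z * g z = 0 := by
      apply Finset.sum_eq_zero
      intro z hz
      have h1 : ¬ 0 < g z := fun h1 => by
        have : z ∈ S := Finset.mem_filter.2 ⟨hz, h1⟩
        rw [hE] at this
        exact absurd this (Finset.notMem_empty z)
      have h2 : g z = 0 := le_antisymm (not_lt.1 h1) (hg z hz)
      rw [h2, mul_zero]
    rw [h0]
    exact Finset.sum_nonneg fun a ha => mul_nonneg (hw a).le (hG a ha)
  · obtain ⟨z0, hz0, hmin⟩ := Finset.exists_min_image S g hne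
    set δ := g z0 with hδ
    have hδpos : 0 < δ := (Finset.mem_filter.1 hz0).2
    set g' : V → ℝ := fun z => if 0 < g z then g z - δ else g z with hg'
    set G' : V → ℝ := fun a => if ∃ z ∈ S, a ∈ N z then G a - δ else G a with hG'
    have hg'0 : ∀ z ∈ D, 0 ≤ g' z := by
      intro z hz
      simp only [hg']
      split_ifs with h1
      · have := hmin z (Finset.mem_filter.2 ⟨hz, h1⟩)
        linarith
      · exact hg z hz
    have hG'0 : ∀ a ∈ A, 0 ≤ G' a := by
      intro a ha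
      simp only [hG']
      split_ifs with h1
      · obtain ⟨z, hz, haz⟩ := h1
        have h2 := hmin z hz
        have h3 := hgG a ha z (Finset.mem_filter.1 hz).1 haz
        linarith
      · exact hG a ha
    have hg'G' : ∀ a ∈ A, ∀ z ∈ D, a ∈ N z → g' z ≤ G' a := by
      intro a ha z hz haz
      have h3 := hgG a ha z hz haz
      by_cases h1 : 0 < g z
      · have h2 : ∃ z ∈ S, a ∈ N z := ⟨z, Finset.mem_filter.2 ⟨hz, h1⟩, haz⟩
        simp only [hg', hG', if_pos h1, if_pos h2]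
        linarith
      · have h4 : g' z = 0 := by
          simp only [hg', if_neg h1]
          exact le_antisymm (not_lt.1 h1) (hg z hz)
        rw [h4]
        exact hG'0 a ha
    have hcard : (D.filter fun z => 0 < g' z).card < n := by
      rw [← hn]
      apply Finset.card_lt_card
      rw [Finset.ssubset_iff_of_subset]
      · refine ⟨z0, hz0, ?_⟩
        intro h
        have h1 := (Finset.mem_filter.1 h).2
        simp only [hg', if_pos hδpos, ← hδ] at h1
        linarith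
      · intro z hz
        rw [Finset.mem_filter] at hz
        refine Finset.mem_filter.2 ⟨hz.1, ?_⟩
        by_contra h1
        have h2 := hz.2
        simp only [hg', if_neg h1] at h2
        exact h1 h2
    have key := ih _ hcard g' G' rfl hg'0 hG'0 hg'G'
    have e1 : ∑ z ∈ D, w z * g z = ∑ z ∈ D, w z * g' z + δ * ∑ z ∈ S, w z := by
      rw [hS, Finset.sum_filter, Finset.mul_sum, ← Finset.sum_add_distrib]
      apply Finset.sum_congr rfl
      intro z _
      simp only [hg']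
      split_ifs <;> ring
    have e2 : ∑ a ∈ A, w a * G a =
        ∑ a ∈ A, w a * G' a + δ * ∑ a ∈ A.filter (fun a => ∃ z ∈ S, a ∈ N z), w a := by
      rw [Finset.sum_filter, Finset.mul_sum, ← Finset.sum_add_distrib]
      apply Finset.sum_congr rfl
      intro a _
      simp only [hG']
      split_ifs <;> ring
    have e3 := mul_le_mul_of_nonneg_left (hall S (Finset.filter_subset _ _)) hδpos.le
    rw [e1, e2]
    linarith

end Vale.Agent.P038.H775
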