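import Vale.Agent.P038.H775.Base

/-!
# The rotation inequality for optimal orthogonal pairs of families
-/

namespace Vale.Agent.P038.H775

open Finset

variable {V : Type*} [Fintype V] [DecidableEq V]

/-- Orthogonality of two families. -/
def Orth (B C : V → Finset V) : Prop := ∀ a b, b ∈ B a → a ∈ C b → a = b

/-- The energy of a family. -/
noncomputable def kap (N : V → Finset V) (w : V → ℝ) (B : V → Finset V) : ℝ :=
  ∑ a, w a * cut N w (B a)

/-- Admissible pairs. -/
def Adm (N : V → Finset V) (p : (V → Finset V) × (V → Finset V)) : Prop :=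
  (∀ a, N a ⊆ p.1 a) ∧ (∀ a, N a ⊆ p.2 a) ∧ Orth p.1 p.2

theorem kap_update (N : V → Finset V) (w : V → ℝ) (B : V → Finset V) (z : V) (R : Finset V) :
    kap N w (Function.update B z R) = kap N w B + w z * (cut N w R - cut N w (B z)) := by
  unfold kap
  rw [← Finset.add_sum_erase Finset.univ _ (Finset.mem_univ z),
    ← Finset.add_sum_erase Finset.univ (fun a => w a * cut N w (B a)) (Finset.mem_univ z)]
  have h1 : ∑ x ∈ Finset.univ.erase z, w x * cut N w (Function.update B z R x) =
      ∑ x ∈ Finset.univ.erase z, w x * cut N w (B x) := by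
    apply Finset.sum_congr rfl
    intro x hx
    rw [Function.update_of_ne (Finset.ne_of_mem_erase hx)]
  rw [h1, Function.update_self]
  ring

theorem kap_eq (N : V → Finset V) (w : V → ℝ) (hN : ∀ a, a ∈ N a) (C : V → Finset V) :
    kap N w C = ∑ a, w a * (∑ b ∈ Finset.univ.filter (fun b => a ∉ C b), w b -
      ∑ b ∈ Finset.univ.filter (fun b => a ∉ NN N (C b)), w b) := by
  unfold kap cut
  have h1 : ∀ b, w b * (∑ v ∈ NN N (C b), w v - ∑ v ∈ C b, w v) =
      ∑ a, w b * ((if a ∈ NN N (C b) then w a else 0) - (if a ∈ C b then w a else 0)) := by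
    intro b
    rw [← Finset.mul_sum, Finset.sum_sub_distrib, Finset.sum_ite_mem, Finset.sum_ite_mem,
      Finset.univ_inter, Finset.univ_inter]
  have h2 : ∀ a, w a * (∑ b ∈ Finset.univ.filter (fun b => a ∉ C b), w b -
      ∑ b ∈ Finset.univ.filter (fun b => a ∉ NN N (C b)), w b) =
      ∑ b, w a * ((if a ∉ C b then w b else 0) - (if a ∉ NN N (C b) then w b else 0)) := by
    intro a
    rw [← Finset.mul_sum, Finset.sum_sub_distrib, Finset.sum_filter, Finset.sum_filter]
  simp only [h1, h2]
  rw [Finset.sum_comm]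
  apply Finset.sum_congr rfl
  intro a _
  apply Finset.sum_congr rfl
  intro b _
  have h3 : a ∈ C b → a ∈ NN N (C b) := fun h => mem_NN.2 ⟨a, h, hN a⟩
  by_cases h4 : a ∈ C b
  · simp [h4, h3 h4]
  · by_cases h5 : a ∈ NN N (C b)
    · simp [h4, h5]
      ring
    · simp [h4, h5]

/-- Existence of a minimiser. -/
theorem exists_opt (N : V → Finset V) (w : V → ℝ)
    (hanti : ∀ a b, b ∈ N a → a ∈ N b → a = b) :
    ∃ p : (V → Finset V) × (V → Finset V), Adm N p ∧
      ∀ q, Adm N q → kap N w p.1 + kap N w p.2 ≤ kap N w q.1 + kap N w q.2 := by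
  classical
  obtain ⟨p, hp, hmin⟩ := Finset.exists_min_image
    (Finset.univ.filter fun p : (V → Finset V) × (V → Finset V) => Adm N p)
    (fun p => kap N w p.1 + kap N w p.2)
    ⟨(N, N), Finset.mem_filter.2 ⟨Finset.mem_univ _, fun a => Finset.Subset.refl _,
      fun a => Finset.Subset.refl _, hanti⟩⟩
  exact ⟨p, (Finset.mem_filter.1 hp).2, fun q hq =>
    hmin q (Finset.mem_filter.2 ⟨Finset.mem_univ _, hq⟩)⟩

/-- The upper envelopes: `x ∈ Us C a` iff `x = a` or `a ∉ C x`. -/
def Us (C : V → Finset V) (a : V) : Finset V := Finset.univ.filter fun x => x = a ∨ a ∉ C x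

open Classical in
/-- Intersection over the closed in-neighbourhood. -/
noncomputable def It (N B : V → Finset V) (a : V) : Finset V :=
  Finset.univ.filter fun x => ∀ s, a ∈ N s → x ∈ B s

theorem mUs {C : V → Finset V} {a x : V} : x ∈ Us C a ↔ x = a ∨ a ∉ C x := by simp [Us]

theorem mIt {N B : V → Finset V} {a x : V} : x ∈ It N B a ↔ ∀ s, a ∈ N s → x ∈ B s := by
  simp [It]

/-- Optimal admissible pairs. -/
structure Best (N : V → Finset V) (w : V → ℝ) (B C : V → Finset V) : Prop where
  hw : ∀ v, 0 < w v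
  hN : ∀ a, a ∈ N a
  hB : ∀ a, N a ⊆ B a
  hC : ∀ a, N a ⊆ C a
  hO : Orth B C
  hopt : ∀ q, Adm N q → kap N w B + kap N w C ≤ kap N w q.1 + kap N w q.2

namespace Best

variable {N : V → Finset V} {w : V → ℝ} {B C : V → Finset V}

theorem hBU (h : Best N w B C) (a : V) : B a ⊆ Us C a := by
  intro x hx
  rw [mUs]
  by_cases h' : x = a
  · exact Or.inl h'
  · exact Or.inr fun h1 => h' (h.hO a x hx h1).symm

theorem hXB {a s : V} (ha : a ∈ N s) : It N B a ⊆ B s := fun _ hx => mIt.1 hx _ ha

theorem hWU {a s : V} (ha : a ∈ N s) : It N (Us C) a ⊆ Us C s := fun _ hx => mIt.1 hx _ ha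

theorem hXW (h : Best N w B C) (a : V) : It N B a ⊆ It N (Us C) a :=
  fun _ hx => mIt.2 fun s hs => h.hBU s (mIt.1 hx s hs)

theorem hNU (h : Best N w B C) (a : V) : N a ⊆ Us C a := (h.hB a).trans (h.hBU a)

theorem haX (h : Best N w B C) (a : V) : a ∈ It N B a := mIt.2 fun s hs => h.hB s hs

theorem haY (h : Best N w B C) (a : V) : a ∈ It N C a := mIt.2 fun s hs => h.hC s hs

theorem haW (h : Best N w B C) (a : V) : a ∈ It N (Us C) a := h.hXW a (h.haX a)

/-- Row optimality. -/
theorem hrow (h : Best N w B C) (z : V) (R : Finset V) (h1 : N z ⊆ R) (h2 : R ⊆ Us C z) :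
    cut N w (B z) ≤ cut N w R := by
  have hadm : Adm N (Function.update B z R, C) := by
    refine ⟨?_, h.hC, ?_⟩
    · intro a
      by_cases ha : a = z
      · subst ha
        simpa using h1
      · simpa [Function.update_of_ne ha] using h.hB a
    · intro a b hb ha
      simp only at hb ha
      by_cases haz : a = z
      · subst haz
        rw [Function.update_self] at hb
        rcases mUs.1 (h2 hb) with h | h
        · exact h.symm
        · exact absurd ha h
      · rw [Function.update_of_ne haz] at hb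
        exact h.hO a b hb ha
  have h3 := h.hopt _ hadm
  simp only at h3
  rw [kap_update] at h3
  have h4 : 0 ≤ w z * (cut N w R - cut N w (B z)) := by linarith
  have h5 := nonneg_of_mul_nonneg_right h4 (h.hw z)
  linarith

open Classical in
/-- Column optimality. -/
theorem hcol (h : Best N w B C) (x : V) (Z : Finset V) (hZ : ∀ z ∈ Z, x ∈ Us C z ∧ x ∉ B z) :
    ∑ z ∈ Z, w z ≤ ∑ a ∈ (Finset.univ.filter fun a => x ∈ It N (Us C) a).filter
      (fun a => ∃ z ∈ Z, a ∈ N z), w a := by
  have hadm : Adm N (B, Function.update C x (C x ∪ Z)) := by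
    refine ⟨h.hB, ?_, ?_⟩
    · intro a
      by_cases ha : a = x
      · subst ha
        simpa using (h.hC a).trans subset_union_left
      · simpa [Function.update_of_ne ha] using h.hC a
    · intro a b hb ha
      simp only at hb ha
      by_cases hbx : b = x
      · subst hbx
        rw [Function.update_self, mem_union] at ha
        rcases ha with ha | ha
        · exact h.hO a b hb ha
        · exact absurd hb (hZ a ha).2
      · rw [Function.update_of_ne hbx] at ha
        exact h.hO a b hb ha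
  have h3 := h.hopt _ hadm
  simp only at h3
  rw [kap_update] at h3
  have h4 : 0 ≤ w x * (cut N w (C x ∪ Z) - cut N w (C x)) := by linarith
  have h5 := nonneg_of_mul_nonneg_right h4 (h.hw x)
  have hdis : Disjoint (C x) Z := by
    rw [Finset.disjoint_right]
    intro z hz hzC
    obtain ⟨h6, h7⟩ := hZ z hz
    rcases mUs.1 h6 with h8 | h8
    · subst h8
      exact h7 (h.hB _ (h.hN _))
    · exact h8 hzC
  have h6 : NN N (C x ∪ Z) ⊆ NN N (C x) ∪
      (Finset.univ.filter fun a => x ∈ It N (Us C) a).filter (fun a => ∃ z ∈ Z, a ∈ N z) := by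
    intro a ha
    obtain ⟨y, hy, hay⟩ := mem_NN.1 ha
    rw [mem_union]
    by_cases h7 : a ∈ NN N (C x)
    · exact Or.inl h7
    · right
      rw [mem_union] at hy
      rcases hy with hy | hy
      · exact absurd (mem_NN.2 ⟨y, hy, hay⟩) h7
      · refine Finset.mem_filter.2 ⟨Finset.mem_filter.2 ⟨Finset.mem_univ _, mIt.2 ?_⟩, y, hy, hay⟩
        intro s hs
        rw [mUs]
        exact Or.inr fun h8 => h7 (mem_NN.2 ⟨s, h8, hs⟩)
  have h7 : ∑ v ∈ NN N (C x ∪ Z), w v ≤ ∑ v ∈ NN N (C x), w v +
      ∑ a ∈ (Finset.univ.filter fun a => x ∈ It N (Us C) a).filter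
        (fun a => ∃ z ∈ Z, a ∈ N z), w a := by
    refine (sum_le_sum_of_subset_of_nonneg h6 fun v _ _ => (h.hw v).le).trans ?_
    have := sum_union_inter (s₁ := NN N (C x))
      (s₂ := (Finset.univ.filter fun a => x ∈ It N (Us C) a).filter
      (fun a => ∃ z ∈ Z, a ∈ N z)) (f := w)
    have h8 : 0 ≤ ∑ v ∈ NN N (C x) ∩ (Finset.univ.filter fun a => x ∈ It N (Us C) a).filter
      (fun a => ∃ z ∈ Z, a ∈ N z), w v := Finset.sum_nonneg fun v _ => (h.hw v).le
    linarith
  have h8 := sum_union (f := w) hdis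
  unfold cut at h5
  linarith

/-- Intersection with one row does not increase the cut. -/
theorem hR1 (h : Best N w B C) (s : V) (T : Finset V) (hT : T ⊆ Us C s) :
    cut N w (T ∩ B s) ≤ cut N w T := by
  have h1 := cut_submod N h.hw T (B s)
  have h2 := h.hrow s (T ∪ B s) ((h.hB s).trans subset_union_right) (union_subset hT (h.hBU s))
  linarith

open Classical in
/-- Intersection with all rows of the closed in-neighbourhood. -/
theorem hR2 (h : Best N w B C) (a : V) (T : Finset V) (h1 : It N B a ⊆ T)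
    (h2 : T ⊆ It N (Us C) a) : cut N w (It N B a) ≤ cut N w T := by
  have h3 : ∀ Q : Finset V, (∀ s ∈ Q, a ∈ N s) →
      cut N w (T.filter fun x => ∀ s ∈ Q, x ∈ B s) ≤ cut N w T := by
    intro Q
    induction Q using Finset.induction_on with
    | empty =>
      intro _
      have : (T.filter fun x => ∀ s ∈ (∅ : Finset V), x ∈ B s) = T := by
        apply Finset.filter_true_of_mem
        intro x _ s hs
        exact absurd hs (Finset.notMem_empty s)
      rw [this]
    | insert s Q hs ih =>
      intro hQ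
      have h4 : (T.filter fun x => ∀ t ∈ insert s Q, x ∈ B t) =
          (T.filter fun x => ∀ t ∈ Q, x ∈ B t) ∩ B s := by
        ext x
        simp only [Finset.mem_filter, Finset.mem_inter, Finset.mem_insert]
        constructor
        · rintro ⟨h5, h6⟩
          exact ⟨⟨h5, fun t ht => h6 t (Or.inr ht)⟩, h6 s (Or.inl rfl)⟩
        · rintro ⟨⟨h5, h6⟩, h7⟩
          refine ⟨h5, ?_⟩
          rintro t (ht | ht)
          · rw [ht]
            exact h7
          · exact h6 t ht
      rw [h4]
      refine (h.hR1 s _ ?_).trans (ih fun t ht => hQ t (Finset.mem_insert_of_mem ht))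
      exact (Finset.filter_subset _ _).trans (h2.trans (hWU (hQ s (Finset.mem_insert_self _ _))))
  have h4 := h3 (Finset.univ.filter fun s => a ∈ N s) (fun s hs => (Finset.mem_filter.1 hs).2)
  have h5 : (T.filter fun x => ∀ s ∈ Finset.univ.filter (fun s => a ∈ N s), x ∈ B s) =
      It N B a := by
    ext x
    rw [Finset.mem_filter, mIt]
    constructor
    · rintro ⟨_, h6⟩ s hs
      exact h6 s (Finset.mem_filter.2 ⟨Finset.mem_univ _, hs⟩)
    · intro h6
      exact ⟨h1 (mIt.2 h6), fun s hs => h6 s (Finset.mem_filter.1 hs).2⟩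
  rw [h5] at h4
  exact h4

theorem hmB (h : Best N w B C) (z : V) : mn (cut N w) (B z) (Us C z) = cut N w (B z) := by
  obtain ⟨T, h1, h2, h3⟩ := mn_attain (c := cut N w) (h.hBU z)
  apply le_antisymm (mn_le (Finset.Subset.refl _) (h.hBU z))
  rw [← h3]
  exact h.hrow z T ((h.hB z).trans h1) h2

theorem hmX (h : Best N w B C) (a : V) :
    mn (cut N w) (It N B a) (It N (Us C) a) = cut N w (It N B a) := by
  obtain ⟨T, h1, h2, h3⟩ := mn_attain (c := cut N w) (h.hXW a)
  apply le_antisymm (mn_le (Finset.Subset.refl _) (h.hXW a))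
  rw [← h3]
  exact h.hR2 a T h1 h2

open Classical in
/-- The star inequality. -/
theorem star (h : Best N w B C) : ∑ a, w a * (cut N w (Us C a) - cut N w (B a)) ≤
    ∑ a, w a * (cut N w (It N (Us C) a) - cut N w (It N B a)) := by
  set e := Fintype.equivFin V with he
  have e1 : ∀ z, w z * (cut N w (Us C z) - cut N w (B z)) =
      ∑ x, w z * gr (cut N w) e (B z) (Us C z) x := by
    intro z
    rw [← Finset.mul_sum, gr_sum (h.hBU z) (h.hmB z)]
  have e2 : ∀ a, w a * (cut N w (It N (Us C) a) - cut N w (It N B a)) =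
      ∑ x, w a * gr (cut N w) e (It N B a) (It N (Us C) a) x := by
    intro a
    rw [← Finset.mul_sum, gr_sum (h.hXW a) (h.hmX a)]
  simp only [e1, e2]
  rw [Finset.sum_comm,
    Finset.sum_comm (f := fun a x => w a * gr (cut N w) e (It N B a) (It N (Us C) a) x)]
  apply Finset.sum_le_sum
  intro x _
  set D := Finset.univ.filter fun z => x ∈ Us C z ∧ x ∉ B z with hD
  set A := Finset.univ.filter fun a => x ∈ It N (Us C) a with hA
  have e3 : ∑ z, w z * gr (cut N w) e (B z) (Us C z) x =
      ∑ z ∈ D, w z * gr (cut N w) e (B z) (Us C z) x := by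
    symm
    apply Finset.sum_subset (Finset.subset_univ _)
    intro z _ hz
    rw [gr_zero, mul_zero]
    intro h1
    by_contra h2
    exact hz (Finset.mem_filter.2 ⟨Finset.mem_univ _, h1, h2⟩)
  have e4 : ∑ a ∈ A, w a * gr (cut N w) e (It N B a) (It N (Us C) a) x =
      ∑ a, w a * gr (cut N w) e (It N B a) (It N (Us C) a) x := by
    apply Finset.sum_subset (Finset.subset_univ _)
    intro a _ ha
    rw [gr_zero, mul_zero]
    intro h1
    have h2 : a ∈ A := by
      rw [hA, Finset.mem_filter]
      exact ⟨Finset.mem_univ _, h1⟩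
    exact absurd h2 ha
  rw [e3, ← e4]
  refine layer N h.hw A D ?_ _ _ _ rfl ?_ ?_ ?_
  · intro Z hZ
    exact h.hcol x Z fun z hz => (Finset.mem_filter.1 (hZ hz)).2
  · intro z _
    exact gr_nonneg (h.hBU z) x
  · intro a _
    exact gr_nonneg (h.hXW a) x
  · intro a ha z _ haz
    exact gr_coh (cut_submod N h.hw) (h.hBU z) (h.hXW a) (hXB haz) (hWU haz)
      (Finset.mem_filter.1 ha).2

theorem hkC (h : Best N w B C) :
    ∑ a, w a * (∑ x ∈ Us C a, w x - ∑ x ∈ It N (Us C) a, w x) ≤ kap N w C := by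
  rw [kap_eq N w h.hN C]
  apply Finset.sum_le_sum
  intro a _
  apply mul_le_mul_of_nonneg_left _ (h.hw a).le
  have haC : a ∉ Finset.univ.filter (fun b => a ∉ C b) := by
    simp [h.hC a (h.hN a)]
  have haC' : a ∉ Finset.univ.filter (fun b => a ∉ NN N (C b)) := by
    simp only [Finset.mem_filter, Finset.mem_univ, true_and, not_not]
    exact mem_NN.2 ⟨a, h.hC a (h.hN a), h.hN a⟩
  have h1 : Us C a ⊆ insert a (Finset.univ.filter (fun b => a ∉ C b)) := by
    intro x hx
    rcases mUs.1 hx with h | h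
    · rw [h]
      exact Finset.mem_insert_self _ _
    · exact Finset.mem_insert_of_mem (Finset.mem_filter.2 ⟨Finset.mem_univ _, h⟩)
  have h2 : insert a (Finset.univ.filter (fun b => a ∉ NN N (C b))) ⊆ It N (Us C) a := by
    intro x hx
    rcases Finset.mem_insert.1 hx with h' | h'
    · rw [h']
      exact h.haW a
    · refine mIt.2 fun s hs => mUs.2 (Or.inr fun h3 => (Finset.mem_filter.1 h').2 ?_)
      exact mem_NN.2 ⟨s, h3, hs⟩
  have h3 := sum_le_sum_of_subset_of_nonneg h1 fun v _ _ => (h.hw v).le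
  have h4 := sum_le_sum_of_subset_of_nonneg h2 fun v _ _ => (h.hw v).le
  rw [Finset.sum_insert haC] at h3
  rw [Finset.sum_insert haC'] at h4
  linarith

theorem hkY (h : Best N w B C) : kap N w (It N C) ≤
    ∑ a, w a * (∑ x ∈ NN N (Us C a), w x - ∑ x ∈ NN N (It N (Us C) a), w x) := by
  rw [kap_eq N w h.hN (It N C)]
  apply Finset.sum_le_sum
  intro a _
  apply mul_le_mul_of_nonneg_left _ (h.hw a).le
  have haY' : a ∉ Finset.univ.filter (fun b => a ∉ It N C b) := by
    simp [h.haY a]
  have haY'' : a ∉ Finset.univ.filter (fun b => a ∉ NN N (It N C b)) := by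
    simp only [Finset.mem_filter, Finset.mem_univ, true_and, not_not]
    exact mem_NN.2 ⟨a, h.haY a, h.hN a⟩
  have h1 : insert a (Finset.univ.filter (fun b => a ∉ It N C b)) ⊆ NN N (Us C a) := by
    intro b hb
    rcases Finset.mem_insert.1 hb with h' | h'
    · rw [h']
      exact mem_NN.2 ⟨a, h.hNU a (h.hN a), h.hN a⟩
    · have h2 := (Finset.mem_filter.1 h').2
      rw [mIt] at h2
      push Not at h2
      obtain ⟨s, hs, has⟩ := h2
      exact mem_NN.2 ⟨s, mUs.2 (Or.inr has), hs⟩
  have h2 : NN N (It N (Us C) a) ⊆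
      insert a (Finset.univ.filter (fun b => a ∉ NN N (It N C b))) := by
    intro b hb
    by_cases hab : b = a
    · rw [hab]
      exact Finset.mem_insert_self _ _
    · refine Finset.mem_insert_of_mem (Finset.mem_filter.2 ⟨Finset.mem_univ _, ?_⟩)
      intro h3
      obtain ⟨s, hsY, has⟩ := mem_NN.1 h3
      obtain ⟨x, hxW, hbx⟩ := mem_NN.1 hb
      have hsC : s ∈ C x := mIt.1 hsY x hbx
      rcases mUs.1 (mIt.1 hxW s has) with h4 | h4
      · -- x = s
        subst h4
        by_cases h5 : x = a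
        · subst h5
          have h6 : x ∈ C b := mIt.1 hsY b (h.hN b)
          exact hab (h.hO x b (h.hB x hbx) h6).symm
        · rcases mUs.1 (mIt.1 hxW a (h.hN a)) with h6 | h6
          · exact h5 h6
          · exact h6 (h.hC x has)
      · exact h4 hsC
  have h3 := sum_le_sum_of_subset_of_nonneg h1 fun v _ _ => (h.hw v).le
  have h4 := sum_le_sum_of_subset_of_nonneg h2 fun v _ _ => (h.hw v).le
  rw [Finset.sum_insert haY'] at h3
  rw [Finset.sum_insert haY''] at h4
  linarith

/-- The energy of the rotated pair. -/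
theorem main (h : Best N w B C) :
    kap N w (It N B) + kap N w (It N C) ≤ kap N w B + kap N w C := by
  have h1 : ∑ a, w a * (∑ x ∈ NN N (Us C a), w x - ∑ x ∈ NN N (It N (Us C) a), w x) -
      ∑ a, w a * (∑ x ∈ Us C a, w x - ∑ x ∈ It N (Us C) a, w x) =
      ∑ a, w a * cut N w (Us C a) - ∑ a, w a * cut N w (It N (Us C) a) := by
    rw [← Finset.sum_sub_distrib, ← Finset.sum_sub_distrib]
    apply Finset.sum_congr rfl
    intro a _
    unfold cut
    ring
  have hstar := h.star
  have hkC := h.hkC
  have hkY := h.hkY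
  simp only [mul_sub, Finset.sum_sub_distrib] at hstar
  have e1 : kap N w (It N B) = ∑ a, w a * cut N w (It N B a) := rfl
  have e2 : kap N w B = ∑ a, w a * cut N w (B a) := rfl
  rw [e1, e2]
  linarith

/-- Orthogonality of the closed families. -/
theorem orth (h : Best N w B C) :
    Orth (fun a => NN N (It N B a)) (fun a => NN N (It N C a)) := by
  intro a b hb ha
  obtain ⟨x, hx, hbx⟩ := mem_NN.1 hb
  obtain ⟨y, hy, hay⟩ := mem_NN.1 ha
  have h1 : y = x := h.hO y x (mIt.1 hx y hay) (mIt.1 hy x hbx)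
  subst h1
  have h2 : a = y := h.hO a y (mIt.1 hx a (h.hN a)) (h.hC y hay)
  have h3 : y = b := h.hO y b (h.hB y hbx) (mIt.1 hy b (h.hN b))
  exact h2.trans h3

end Best

/-- The rotation inequality: there is a pair of families `(X, Y)` with orthogonal closures whose
energy is at most the energy of the closures. -/
theorem rotation (N : V → Finset V) (w : V → ℝ) (hw : ∀ v, 0 < w v) (hN : ∀ a, a ∈ N a)
    (hanti : ∀ a b, b ∈ N a → a ∈ N b → a = b) :
    ∃ X Y : V → Finset V, (∀ a, a ∈ X a) ∧ (∀ a, a ∈ Y a) ∧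
      Orth (fun a => NN N (X a)) (fun a => NN N (Y a)) ∧
      kap N w X + kap N w Y ≤ kap N w (fun a => NN N (X a)) + kap N w (fun a => NN N (Y a)) := by
  obtain ⟨⟨B, C⟩, ⟨hB, hC, hO⟩, hopt⟩ := exists_opt N w hanti
  simp only at hB hC hO hopt
  have h : Best N w B C := ⟨hw, hN, hB, hC, hO, hopt⟩
  have ho := h.orth
  have hm := h.main
  have hx := h.haX
  have hy := h.haY
  refine ⟨It N B, It N C, hx, hy, ho, ?_⟩
  have hadm : Adm N ((fun a => NN N (It N B a)), (fun a => NN N (It N C a))) := by
    refine ⟨?_, ?_, ho⟩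
    · intro a z hz
      simp only
      exact mem_NN.2 ⟨a, hx a, hz⟩
    · intro a z hz
      simp only
      exact mem_NN.2 ⟨a, hy a, hz⟩
  have h9 := hopt _ hadm
  simp only at h9
  exact le_trans hm h9

end Vale.Agent.P038.H775
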