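import Vale.Agent.P038.H775.Cut
import Vale.Agent.P038.Defs

/-!
# Seymour's second neighbourhood conjecture
-/

namespace Vale.Agent.P038.H775

open Finset

variable {V : Type*} [Fintype V] [DecidableEq V]

/-- Closed out-neighbourhoods of an oriented graph. -/
noncomputable def Nc (D : OGraph V) (v : V) : Finset V := insert v (N1 D v)

theorem mem_Nc {D : OGraph V} {v z : V} : z ∈ Nc D v ↔ z = v ∨ D.arc v z := by
  rw [Nc, Finset.mem_insert, mem_N1]

/-- `F_w(v) = w(N₁(v)) - w(N₂(v))`. -/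
noncomputable def FF (D : OGraph V) (w : V → ℝ) (v : V) : ℝ :=
  ∑ x ∈ N1 D v, w x - ∑ x ∈ N2 D v, w x

/-- Delete all arcs from `X` to `Z`. -/
def del (D : OGraph V) (X Z : Finset V) : OGraph V where
  arc a b := D.arc a b ∧ ¬ (a ∈ X ∧ b ∈ Z)
  loopless v h := D.loopless v h.1
  asymm _ _ h h' := D.asymm _ _ h.1 h'.1

/-- The simultaneous deletion does not decrease `F`. -/
theorem del_ge (D : OGraph V) {w : V → ℝ} (hw : ∀ v, 0 < w v) (X T : Finset V)
    (hT : T ⊆ NN (Nc D) X \ X)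
    (hmin : ∀ D' ⊆ (NN (Nc D) X \ X) \ T,
      2 * ∑ z ∈ D', w z ≤ ∑ z ∈ NN (Nc D) D' \ (NN (Nc D) T ∪ X), w z) (v : V) :
    FF D w v ≤ FF (del D X ((NN (Nc D) X \ X) \ T)) w v := by
  classical
  set L := NN (Nc D) X \ X with hL
  set Z := L \ T with hZ
  set D1 := del D X Z with hD1
  have arc1 : ∀ a b, D1.arc a b ↔ D.arc a b ∧ ¬ (a ∈ X ∧ b ∈ Z) := fun _ _ => Iff.rfl
  have hw0 : ∀ v, 0 ≤ w v := fun v => (hw v).le
  unfold FF
  by_cases hv : v ∈ X
  · -- v in X
    set Dv := (N1 D v).filter fun z => z ∈ Z with hDv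
    have mDv : ∀ {z}, z ∈ Dv ↔ D.arc v z ∧ z ∈ Z := by
      intro z
      rw [hDv, Finset.mem_filter, mem_N1]
    set E := NN (Nc D) Dv \ (NN (Nc D) T ∪ X) with hE
    have hN1 : N1 D v = N1 D1 v ∪ Dv := by
      ext z
      rw [Finset.mem_union, mem_N1, mem_N1, mDv, arc1]
      constructor
      · intro h
        by_cases hz : z ∈ Z
        · exact Or.inr ⟨h, hz⟩
        · exact Or.inl ⟨h, fun h' => hz h'.2⟩
      · rintro (h | h)
        · exact h.1
        · exact h.1
    have hdis1 : Disjoint (N1 D1 v) Dv := by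
      rw [Finset.disjoint_left]
      intro z hz hz'
      rw [mem_N1, arc1] at hz
      exact hz.2 ⟨hv, (mDv.1 hz').2⟩
    have hs1 := sum_union (f := w) hdis1
    rw [← hN1] at hs1
    -- the out-neighbours of v in D1 lie in X ∪ T
    have hR : ∀ c, D1.arc v c → c ∈ X ∨ c ∈ T := by
      intro c hc
      rw [arc1] at hc
      by_cases hcX : c ∈ X
      · exact Or.inl hcX
      · right
        by_contra hcT
        apply hc.2
        refine ⟨hv, ?_⟩
        rw [hZ, Finset.mem_sdiff, hL, Finset.mem_sdiff]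
        exact ⟨⟨mem_NN.2 ⟨v, hv, mem_Nc.2 (Or.inr hc.1)⟩, hcX⟩, hcT⟩
    have hgen : ∀ y c, y ∈ X → D1.arc y c → c ∈ X ∨ c ∈ T := by
      intro y c hy hc
      rw [arc1] at hc
      by_cases hcX : c ∈ X
      · exact Or.inl hcX
      · right
        by_contra hcT
        apply hc.2
        refine ⟨hy, ?_⟩
        rw [hZ, Finset.mem_sdiff, hL, Finset.mem_sdiff]
        exact ⟨⟨mem_NN.2 ⟨y, hy, mem_Nc.2 (Or.inr hc.1)⟩, hcX⟩, hcT⟩
    have hdis2 : Disjoint (N2 D1 v) E := by
      rw [Finset.disjoint_left]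
      intro z hz hz'
      rw [mem_N2] at hz
      obtain ⟨_, _, u, hu1, hu2⟩ := hz
      rw [hE, Finset.mem_sdiff] at hz'
      apply hz'.2
      rw [Finset.mem_union]
      rcases hR u hu1 with hu | hu
      · rcases hgen u z hu hu2 with h | h
        · exact Or.inr h
        · exact Or.inl (mem_NN.2 ⟨z, h, mem_Nc.2 (Or.inl rfl)⟩)
      · exact Or.inl (mem_NN.2 ⟨u, hu, mem_Nc.2 (Or.inr hu2.1)⟩)
    have hsub : N2 D1 v ∪ E ⊆ N2 D v ∪ Dv := by
      intro z hz
      rw [Finset.mem_union] at hz ⊢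
      rcases hz with hz | hz
      · rw [mem_N2] at hz
        obtain ⟨h1, h2, u, hu1, hu2⟩ := hz
        by_cases h3 : D.arc v z
        · right
          rw [mDv]
          refine ⟨h3, ?_⟩
          by_contra h4
          exact h2 ⟨h3, fun h5 => h4 h5.2⟩
        · left
          rw [mem_N2]
          exact ⟨h1, h3, u, hu1.1, hu2.1⟩
      · rw [hE, Finset.mem_sdiff, Finset.mem_union, not_or] at hz
        obtain ⟨h1, h2, h3⟩ := hz
        obtain ⟨y, hy, hz⟩ := mem_NN.1 h1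
        rw [mDv] at hy
        rcases mem_Nc.1 hz with h4 | h4
        · right
          rw [h4, mDv]
          exact hy
        · by_cases h5 : D.arc v z
          · right
            rw [mDv]
            refine ⟨h5, ?_⟩
            rw [hZ, Finset.mem_sdiff, hL, Finset.mem_sdiff]
            refine ⟨⟨mem_NN.2 ⟨v, hv, mem_Nc.2 (Or.inr h5)⟩, h3⟩, fun h6 => h2 ?_⟩
            exact mem_NN.2 ⟨z, h6, mem_Nc.2 (Or.inl rfl)⟩
          · left
            rw [mem_N2]
            refine ⟨fun h6 => h3 (h6 ▸ hv), h5, y, hy.1, h4⟩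
    have hdis3 : Disjoint (N2 D v) Dv := by
      rw [Finset.disjoint_left]
      intro z hz hz'
      rw [mem_N2] at hz
      exact hz.2.1 (mDv.1 hz').1
    have hs2 := sum_union (f := w) hdis2
    have hs3 := sum_union (f := w) hdis3
    have hs4 : ∑ z ∈ N2 D1 v ∪ E, w z ≤ ∑ z ∈ N2 D v ∪ Dv, w z :=
      sum_le_sum_of_subset_of_nonneg hsub fun v _ _ => hw0 v
    have hs5 := hmin Dv (fun z hz => (mDv.1 hz).2)
    linarith
  · -- v not in X
    have h1 : N1 D1 v = N1 D v := by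
      ext z
      rw [mem_N1, mem_N1, arc1]
      exact ⟨fun h => h.1, fun h => ⟨h, fun h' => hv h'.1⟩⟩
    have h2 : N2 D1 v ⊆ N2 D v := by
      intro z hz
      rw [mem_N2] at hz ⊢
      obtain ⟨h2, h3, u, hu1, hu2⟩ := hz
      refine ⟨h2, fun h4 => h3 ⟨h4, fun h' => hv h'.1⟩, u, hu1.1, hu2.1⟩
    have h3 : ∑ z ∈ N2 D1 v, w z ≤ ∑ z ∈ N2 D v, w z :=
      sum_le_sum_of_subset_of_nonneg h2 fun v _ _ => hw0 v
    rw [h1]
    linarith

open Classical in
/-- The number of arcs. -/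
noncomputable def arcs (D : OGraph V) : ℕ :=
  (Finset.univ.filter fun p : V × V => D.arc p.1 p.2).card

theorem arcs_del_lt (D : OGraph V) {X Z : Finset V} {a b : V} (ha : a ∈ X) (hb : b ∈ Z)
    (hab : D.arc a b) : arcs (del D X Z) < arcs D := by
  classical
  unfold arcs
  apply Finset.card_lt_card
  rw [Finset.ssubset_iff_of_subset]
  · refine ⟨(a, b), by simpa using hab, ?_⟩
    intro h
    exact ((Finset.mem_filter.1 h).2).2 ⟨ha, hb⟩
  · intro p hp
    rw [Finset.mem_filter] at hp ⊢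
    exact ⟨hp.1, hp.2.1⟩

/-- Closed neighbourhood of a union. -/
theorem NN_union (N : V → Finset V) (S T : Finset V) : NN N (S ∪ T) = NN N S ∪ NN N T := by
  ext z
  simp only [mem_NN, mem_union]
  constructor
  · rintro ⟨y, hy | hy, hz⟩
    · exact Or.inl ⟨y, hy, hz⟩
    · exact Or.inr ⟨y, hy, hz⟩
  · rintro (⟨y, hy, hz⟩ | ⟨y, hy, hz⟩)
    · exact ⟨y, Or.inl hy, hz⟩
    · exact ⟨y, Or.inr hy, hz⟩

theorem sub_NN (D : OGraph V) (S : Finset V) : S ⊆ NN (Nc D) S :=
  fun z hz => mem_NN.2 ⟨z, hz, mem_Nc.2 (Or.inl rfl)⟩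

/-- Inequality (G), strict, for an arc-minimal counterexample. -/
theorem G_strict (D : OGraph V) {w : V → ℝ} (hw : ∀ v, 0 < w v) (hF : ∀ v, 0 < FF D w v)
    (hmin : ∀ D' : OGraph V, (∀ v, 0 < FF D' w v) → arcs D ≤ arcs D') (X : Finset V)
    (hX : NN (Nc D) X ≠ X) : cut (Nc D) w (NN (Nc D) X) < cut (Nc D) w X := by
  classical
  set L := NN (Nc D) X \ X with hL
  have hLne : L.Nonempty := by
    rw [Finset.nonempty_iff_ne_empty]
    intro h
    rw [hL, Finset.sdiff_eq_empty_iff_subset] at h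
    exact hX (Finset.Subset.antisymm h (sub_NN D X))
  set d : Finset V → ℝ := fun T => ∑ z ∈ NN (Nc D) T \ X, w z - 2 * ∑ z ∈ T, w z with hd
  have hXL : NN (Nc D) X = X ∪ L := by
    rw [hL, Finset.union_sdiff_of_subset (sub_NN D X)]
  have hdL : cut (Nc D) w (NN (Nc D) X) - cut (Nc D) w X = d L := by
    have e1 : NN (Nc D) (NN (Nc D) X) = X ∪ (NN (Nc D) L \ X) := by
      rw [Finset.union_sdiff_self_eq_union]
      conv_lhs => rw [hXL, NN_union, hXL]
      rw [Finset.union_assoc, Finset.union_eq_right.2 (sub_NN D L)]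
    have e2 : ∑ z ∈ NN (Nc D) (NN (Nc D) X), w z =
        ∑ z ∈ X, w z + ∑ z ∈ NN (Nc D) L \ X, w z := by
      rw [e1, Finset.sum_union Finset.disjoint_sdiff]
    have e3 : ∑ z ∈ NN (Nc D) X, w z = ∑ z ∈ X, w z + ∑ z ∈ L, w z := by
      rw [hXL, Finset.sum_union]
      rw [hL]
      exact Finset.disjoint_sdiff
    unfold cut
    rw [e2, e3]
    simp only [hd]
    ring
  by_contra hcon
  have hdL0 : 0 ≤ d L := by rw [← hdL]; linarith [not_lt.1 hcon]
  have hd0 : d ∅ = 0 := by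
    simp [hd, NN]
  -- minimiser among proper subsets
  obtain ⟨T, hT, hTmin⟩ := Finset.exists_min_image (L.ssubsets) d
    ⟨∅, Finset.mem_ssubsets.2 (Finset.ssubset_iff_subset_ne.2
      ⟨Finset.empty_subset _, fun h => Finset.Nonempty.ne_empty hLne h.symm⟩)⟩
  rw [Finset.mem_ssubsets] at hT
  have hall : ∀ S ⊆ L, d T ≤ d S := by
    intro S hS
    by_cases h : S = L
    · have h1 := hTmin ∅ (Finset.mem_ssubsets.2 (Finset.ssubset_iff_subset_ne.2
        ⟨Finset.empty_subset _, fun h => Finset.Nonempty.ne_empty hLne h.symm⟩))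
      rw [h]
      linarith
    · exact hTmin S (Finset.mem_ssubsets.2 (Finset.ssubset_iff_subset_ne.2 ⟨hS, h⟩))
  have hmin' : ∀ D' ⊆ L \ T,
      2 * ∑ z ∈ D', w z ≤ ∑ z ∈ NN (Nc D) D' \ (NN (Nc D) T ∪ X), w z := by
    intro S hS
    have hST : Disjoint T S := by
      rw [Finset.disjoint_right]
      intro z hz hz'
      exact (Finset.mem_sdiff.1 (hS hz)).2 hz'
    have h1 := hall (T ∪ S) (Finset.union_subset hT.1
      (hS.trans Finset.sdiff_subset))
    have h2 : NN (Nc D) (T ∪ S) \ X =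
        (NN (Nc D) T \ X) ∪ (NN (Nc D) S \ (NN (Nc D) T ∪ X)) := by
      rw [NN_union]
      ext z
      simp only [Finset.mem_sdiff, Finset.mem_union]
      tauto
    have h3 : Disjoint (NN (Nc D) T \ X) (NN (Nc D) S \ (NN (Nc D) T ∪ X)) := by
      rw [Finset.disjoint_left]
      intro z hz hz'
      rw [Finset.mem_sdiff] at hz hz'
      exact hz'.2 (Finset.mem_union_left _ hz.1)
    simp only [hd] at h1
    rw [h2, Finset.sum_union h3, Finset.sum_union hST] at h1
    linarith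
  have hge := del_ge D hw X T hT.1 hmin'
  have hlt : arcs (del D X (L \ T)) < arcs D := by
    obtain ⟨z, hzL, hzT⟩ := Finset.exists_of_ssubset hT
    have h1 := (Finset.mem_sdiff.1 hzL).1
    have h1' := (Finset.mem_sdiff.1 hzL).2
    obtain ⟨y, hy, hyz⟩ := mem_NN.1 h1
    rcases mem_Nc.1 hyz with h2 | h2
    · exact absurd (h2 ▸ hy) h1'
    · exact arcs_del_lt D hy (Finset.mem_sdiff.2 ⟨hzL, hzT⟩) h2
  have := hmin (del D X (L \ T)) fun v => (hF v).trans_le (hge v)
  omega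

/-- No weighted counterexample. -/
theorem no_ce [Nonempty V] (D0 : OGraph V) {w : V → ℝ} (hw : ∀ v, 0 < w v)
    (hF0 : ∀ v, 0 < FF D0 w v) : False := by
  classical
  -- an arc-minimal counterexample
  obtain ⟨D, hF, hmin⟩ : ∃ D : OGraph V, (∀ v, 0 < FF D w v) ∧
      ∀ D' : OGraph V, (∀ v, 0 < FF D' w v) → arcs D ≤ arcs D' := by
    obtain ⟨D, hD, hmin⟩ := WellFounded.has_min (measure (arcs (V := V))).wf
      {D : OGraph V | ∀ v, 0 < FF D w v} ⟨D0, hF0⟩
    exact ⟨D, hD, fun D' hD' => not_lt.1 (hmin D' hD')⟩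
  have hN : ∀ a, a ∈ Nc D a := fun a => mem_Nc.2 (Or.inl rfl)
  have hanti : ∀ a b, b ∈ Nc D a → a ∈ Nc D b → a = b := by
    intro a b h1 h2
    rcases mem_Nc.1 h1 with h1 | h1
    · exact h1.symm
    · rcases mem_Nc.1 h2 with h2 | h2
      · exact h2
      · exact absurd h2 (D.asymm _ _ h1)
  obtain ⟨X, Y, hX, hY, hO, hE⟩ := rotation (Nc D) w hw hN hanti
  have hG : ∀ S, cut (Nc D) w (NN (Nc D) S) ≤ cut (Nc D) w S := by
    intro S
    by_cases h : NN (Nc D) S = S
    · rw [h]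
    · exact (G_strict D hw hF hmin S h).le
  -- all X a are closed
  have hcl : ∀ a, NN (Nc D) (X a) = X a := by
    by_contra hcon
    push Not at hcon
    obtain ⟨a, ha⟩ := hcon
    have h1 : kap (Nc D) w (fun a => NN (Nc D) (X a)) < kap (Nc D) w X := by
      unfold kap
      apply Finset.sum_lt_sum
      · intro b _
        exact mul_le_mul_of_nonneg_left (hG _) (hw b).le
      · exact ⟨a, Finset.mem_univ _, mul_lt_mul_of_pos_left (G_strict D hw hF hmin _ ha) (hw a)⟩
    have h2 : kap (Nc D) w (fun a => NN (Nc D) (Y a)) ≤ kap (Nc D) w Y := by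
      unfold kap
      apply Finset.sum_le_sum
      intro b _
      exact mul_le_mul_of_nonneg_left (hG _) (hw b).le
    linarith
  -- a minimal nonempty closed set
  obtain ⟨S, hS, hSmin⟩ := Finset.exists_min_image
    (Finset.univ.filter fun S : Finset V => S.Nonempty ∧ NN (Nc D) S ⊆ S) Finset.card
    ⟨Finset.univ, by simp⟩
  rw [Finset.mem_filter] at hS
  obtain ⟨_, ⟨a, haS⟩, hScl⟩ := hS
  have hSX : S ⊆ X a := by
    have h1 : S ∩ X a ∈ (Finset.univ.filter fun S : Finset V => S.Nonempty ∧ NN (Nc D) S ⊆ S) := by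
      refine Finset.mem_filter.2 ⟨Finset.mem_univ _, ⟨a, Finset.mem_inter.2 ⟨haS, hX a⟩⟩, ?_⟩
      intro z hz
      obtain ⟨y, hy, hyz⟩ := mem_NN.1 hz
      rw [Finset.mem_inter] at hy ⊢
      refine ⟨hScl (mem_NN.2 ⟨y, hy.1, hyz⟩), ?_⟩
      rw [← hcl a]
      exact mem_NN.2 ⟨y, hy.2, hyz⟩
    have h2 := hSmin _ h1
    have h3 := Finset.eq_of_subset_of_card_le (Finset.inter_subset_left (s₁ := S) (s₂ := X a)) h2
    rw [← h3]
    exact Finset.inter_subset_right
  -- an out-neighbour of a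
  obtain ⟨b, hb⟩ : ∃ b, D.arc a b := by
    by_contra h
    push Not at h
    have h1 : N1 D a = ∅ := by
      rw [Finset.eq_empty_iff_forall_notMem]
      intro z hz
      exact h z (mem_N1.1 hz)
    have h2 := hF a
    unfold FF at h2
    rw [h1, Finset.sum_empty] at h2
    have h3 : 0 ≤ ∑ x ∈ N2 D a, w x := Finset.sum_nonneg fun v _ => (hw v).le
    linarith
  have hbS : b ∈ S := hScl (mem_NN.2 ⟨a, haS, mem_Nc.2 (Or.inr hb)⟩)
  have hba : b ≠ a := fun h => D.loopless a (h ▸ hb)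
  -- an in-neighbour of a in S
  obtain ⟨s, hs, hsa⟩ : ∃ s ∈ S, D.arc s a := by
    by_contra h
    push Not at h
    have h1 : S.erase a ∈
        (Finset.univ.filter fun S : Finset V => S.Nonempty ∧ NN (Nc D) S ⊆ S) := by
      refine Finset.mem_filter.2 ⟨Finset.mem_univ _, ⟨b, Finset.mem_erase.2 ⟨hba, hbS⟩⟩, ?_⟩
      intro z hz
      obtain ⟨y, hy, hyz⟩ := mem_NN.1 hz
      rw [Finset.mem_erase] at hy ⊢
      refine ⟨?_, hScl (mem_NN.2 ⟨y, hy.2, hyz⟩)⟩
      intro hza
      rw [hza] at hyz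
      rcases mem_Nc.1 hyz with h2 | h2
      · exact hy.1 h2.symm
      · exact h y hy.2 h2
    have h2 := hSmin _ h1
    rw [Finset.card_erase_of_mem haS] at h2
    have h3 : 0 < S.card := Finset.card_pos.2 ⟨a, haS⟩
    omega
  have h1 : s ∈ NN (Nc D) (X a) := sub_NN D _ (hSX hs)
  have h2 : a ∈ NN (Nc D) (Y s) := mem_NN.2 ⟨s, hY s, mem_Nc.2 (Or.inr hsa)⟩
  have h3 : a = s := hO a s h1 h2
  exact D.loopless a (by rw [← h3] at hsa; exact hsa)

/-- Seymour's second neighbourhood conjecture, for positive weights. -/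
theorem main_pos {V : Type*} [Fintype V] [Nonempty V] (D : OGraph V) (w : V → ℝ)
    (hw : ∀ v, 0 < w v) : ∃ v, ∑ x ∈ N1 D v, w x ≤ ∑ x ∈ N2 D v, w x := by
  classical
  by_contra h
  push Not at h
  exact no_ce D hw fun v => by
    unfold FF
    linarith [h v]

/-- Seymour's second neighbourhood conjecture, for nonnegative weights. -/
theorem main_nonneg {V : Type*} [Fintype V] [Nonempty V] (D : OGraph V) (w : V → ℝ)
    (hw : ∀ v, 0 ≤ w v) : ∃ v, ∑ x ∈ N1 D v, w x ≤ ∑ x ∈ N2 D v, w x := by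
  classical
  by_contra h
  push Not at h
  -- the smallest value of F
  obtain ⟨v0, _, hv0⟩ := Finset.exists_min_image Finset.univ
    (fun v => ∑ x ∈ N1 D v, w x - ∑ x ∈ N2 D v, w x) Finset.univ_nonempty
  set m := ∑ x ∈ N1 D v0, w x - ∑ x ∈ N2 D v0, w x with hm
  have hmpos : 0 < m := by rw [hm]; linarith [h v0]
  set n : ℝ := ((Fintype.card V : ℕ) : ℝ) with hn
  have hnpos : 0 < n := by
    rw [hn]
    exact_mod_cast Fintype.card_pos
  set ε := m / (2 * n) with hε
  have hεpos : 0 < ε := by positivity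
  obtain ⟨v, hv⟩ := main_pos D (fun x => w x + ε) (fun x => by linarith [hw x])
  simp only [Finset.sum_add_distrib, Finset.sum_const, nsmul_eq_mul] at hv
  have h1 := hv0 v (Finset.mem_univ _)
  have h2 : ((N2 D v).card : ℝ) ≤ n := by
    rw [hn]
    exact_mod_cast Finset.card_le_univ _
  have h3 : (0 : ℝ) ≤ ((N1 D v).card : ℝ) := by positivity
  have h4 : ε * n = m / 2 := by
    rw [hε]
    field_simp
  have h5 : ((N2 D v).card : ℝ) * ε ≤ m / 2 := by
    rw [← h4, mul_comm]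
    exact mul_le_mul_of_nonneg_left h2 hεpos.le
  have h6 : 0 ≤ ((N1 D v).card : ℝ) * ε := by positivity
  linarith

end Vale.Agent.P038.H775
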